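import Mathlib

/-!
# Jacobsthal's function for integers with sparse prime divisors
-/

namespace Vale.Agent.Results.P013.SparsePrimes

open Finset

/-- Jacobsthal's function: the least positive `m` such that every `m` consecutive integers
contain an integer coprime to `n`. -/
noncomputable def jac (n : ℕ) : ℕ :=
  sInf {m : ℕ | 0 < m ∧ ∀ x : ℤ, ∃ y : ℤ, x ≤ y ∧ y < x + m ∧ Int.gcd y n = 1}

theorem count_le (a D : ℤ) (p m : ℕ) (hp : p.Prime) (hpD : ¬ (p : ℤ) ∣ D) :
    ((range m).filter fun i : ℕ => (p : ℤ) ∣ a + D * (i : ℤ)).card ≤ m / p + 1 := by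
  classical
  rw [← card_range (m / p + 1)]
  apply card_le_card_of_injOn (fun i => i / p)
  · intro i hi
    simp only [coe_filter, mem_range, Set.mem_setOf_eq] at hi
    simp only [coe_range, Set.mem_Iio]
    exact Nat.lt_succ_of_le (Nat.div_le_div_right hi.1.le)
  · intro i hi i' hi' h
    simp only [coe_filter, mem_range, Set.mem_setOf_eq] at hi hi'
    have h1 : (p : ℤ) ∣ D * ((i : ℤ) - i') := by
      have := dvd_sub hi.2 hi'.2
      have e : a + D * (i : ℤ) - (a + D * i') = D * ((i : ℤ) - i') := by ring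
      rwa [e] at this
    have hp' : Prime (p : ℤ) := Nat.prime_iff_prime_int.1 hp
    have h2 : (p : ℤ) ∣ (i : ℤ) - i' := (hp'.dvd_or_dvd h1).resolve_left hpD
    have h3 : i ≡ i' [MOD p] := by
      have : (i' : ℤ) ≡ i [ZMOD p] := (Int.modEq_iff_dvd).2 h2
      exact (Int.natCast_modEq_iff.1 this).symm
    have h4 : i % p = i' % p := h3
    have h5 : i / p = i' / p := h
    rw [← Nat.div_add_mod i p, ← Nat.div_add_mod i' p, h4, h5]

theorem main (n D : ℕ) (hn : n ≠ 0) (hD : 0 < D) (δ : ℝ) (hδ : 0 < δ)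
    (hsum : ∑ p ∈ n.primeFactors with ¬ p ∣ D, (1 : ℝ) / p ≤ 1 - δ) :
    jac n ≤ D * (⌊(n.primeFactors.card : ℝ) / δ⌋₊ + 1) := by
  classical
  set k := n.primeFactors.card with hk
  set m := ⌊(k : ℝ) / δ⌋₊ + 1 with hm
  have hmpos : 0 < m := by omega
  have hmk : (k : ℝ) < m * δ := by
    have : (k : ℝ) / δ < m := by
      rw [hm]; push_cast; exact Nat.lt_floor_add_one _
    rwa [div_lt_iff₀ hδ] at this
  apply Nat.sInf_le
  refine ⟨Nat.mul_pos hD hmpos, fun x => ?_⟩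
  have hD' : (0 : ℤ) < D := by exact_mod_cast hD
  obtain ⟨a, ha1, ha2, ha3⟩ : ∃ a : ℤ, x ≤ a ∧ a < x + D ∧ (D : ℤ) ∣ a - 1 := by
    refine ⟨x + (1 - x) % D, ?_, ?_, ?_⟩
    · have := Int.emod_nonneg (1 - x) hD'.ne'
      linarith
    · have := Int.emod_lt_of_pos (1 - x) hD'
      linarith
    · have h := Int.emod_add_mul_ediv (1 - x) D
      refine ⟨-((1 - x) / D), ?_⟩
      linarith
  set F := n.primeFactors.filter fun p => ¬ p ∣ D with hF
  set B : Finset ℕ := F.biUnion fun p => (range m).filter fun i : ℕ => (p : ℤ) ∣ a + D * (i : ℤ)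
    with hB
  have hBcard : (B.card : ℝ) < m := by
    have h1 : B.card ≤ ∑ p ∈ F, (m / p + 1) := by
      refine le_trans card_biUnion_le (sum_le_sum fun p hp => ?_)
      rw [hF, mem_filter] at hp
      apply count_le a D p m (Nat.prime_of_mem_primeFactors hp.1)
      intro h
      exact hp.2 (Int.natCast_dvd_natCast.1 h)
    have h2 : ((∑ p ∈ F, (m / p + 1) : ℕ) : ℝ) ≤ ∑ p ∈ F, ((m : ℝ) * (1 / p) + 1) := by
      push_cast
      refine sum_le_sum fun p _ => ?_
      have : ((m / p : ℕ) : ℝ) ≤ (m : ℝ) / p := Nat.cast_div_le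
      rw [mul_one_div]
      linarith
    have h3 : ∑ p ∈ F, ((m : ℝ) * (1 / p) + 1) ≤ m * (1 - δ) + k := by
      rw [sum_add_distrib, ← mul_sum, sum_const, nsmul_eq_mul, mul_one]
      have hFk : (F.card : ℝ) ≤ k := by exact_mod_cast card_filter_le _ _
      have := mul_le_mul_of_nonneg_left hsum (Nat.cast_nonneg m : (0 : ℝ) ≤ m)
      linarith
    have h1' : (B.card : ℝ) ≤ ((∑ p ∈ F, (m / p + 1) : ℕ) : ℝ) := by exact_mod_cast h1
    linarith
  obtain ⟨i, hi, hiB⟩ : ∃ i ∈ range m, i ∉ B := by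
    by_contra hcon
    push Not at hcon
    have : (range m).card ≤ B.card := card_le_card hcon
    rw [card_range] at this
    have : (m : ℝ) ≤ B.card := by exact_mod_cast this
    linarith
  rw [mem_range] at hi
  have hiz : (i : ℤ) + 1 ≤ m := by exact_mod_cast hi
  have hiz0 : (0 : ℤ) ≤ i := Int.natCast_nonneg i
  refine ⟨a + D * i, by nlinarith, ?_, ?_⟩
  · push_cast
    nlinarith
  · by_contra hg
    obtain ⟨p, hp, hpd⟩ := Nat.exists_prime_and_dvd hg
    have hpy : (p : ℤ) ∣ a + D * i :=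
      dvd_trans (Int.natCast_dvd_natCast.2 hpd) (Int.gcd_dvd_left _ _)
    have hpn : (p : ℤ) ∣ n :=
      dvd_trans (Int.natCast_dvd_natCast.2 hpd) (Int.gcd_dvd_right _ _)
    have hpn' : p ∣ n := Int.natCast_dvd_natCast.1 hpn
    by_cases hpD : p ∣ D
    · have h1 : (p : ℤ) ∣ a - 1 := dvd_trans (Int.natCast_dvd_natCast.2 hpD) ha3
      have h2 : (p : ℤ) ∣ (D : ℤ) * i := dvd_mul_of_dvd_left (Int.natCast_dvd_natCast.2 hpD) _
      have h3 : (p : ℤ) ∣ 1 := by
        have := dvd_sub (dvd_sub hpy h2) h1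
        have e : a + (D : ℤ) * i - D * i - (a - 1) = 1 := by ring
        rwa [e] at this
      have h4 : p ∣ 1 := by exact_mod_cast h3
      exact hp.one_lt.ne' (Nat.dvd_one.1 h4)
    · apply hiB
      rw [hB, mem_biUnion]
      refine ⟨p, ?_, ?_⟩
      · rw [hF, mem_filter]
        exact ⟨Nat.mem_primeFactors.2 ⟨hp, hpn', hn⟩, hpD⟩
      · rw [mem_filter, mem_range]
        exact ⟨hi, hpy⟩

theorem sparse_set (P : Set ℕ) (hP : Summable (P.indicator fun p : ℕ => (1 : ℝ) / p)) :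
    ∃ C : ℕ, ∀ n : ℕ, n ≠ 0 → (∀ p ∈ n.primeFactors, p ∈ P) →
      jac n ≤ C * (n.primeFactors.card + 1) := by
  classical
  obtain ⟨s, hs⟩ := summable_iff_vanishing_norm.1 hP (1 / 2) (by norm_num)
  set D := ∏ p ∈ s.filter Nat.Prime, p with hD
  have hDpos : 0 < D := prod_pos fun p hp => (mem_filter.1 hp).2.pos
  refine ⟨2 * D, fun n hn hnP => ?_⟩
  have hsum : ∑ p ∈ n.primeFactors with ¬ p ∣ D, (1 : ℝ) / p ≤ 1 - 1 / 2 := by
    have hdis : Disjoint (n.primeFactors.filter fun p => ¬ p ∣ D) s := by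
      rw [Finset.disjoint_left]
      intro p hp hps
      rw [mem_filter] at hp
      exact hp.2 (dvd_prod_of_mem _ (mem_filter.2 ⟨hps, Nat.prime_of_mem_primeFactors hp.1⟩))
    have h := hs _ hdis
    have e : ∑ p ∈ n.primeFactors with ¬ p ∣ D, (P.indicator fun p : ℕ => (1 : ℝ) / p) p =
        ∑ p ∈ n.primeFactors with ¬ p ∣ D, (1 : ℝ) / p := by
      refine sum_congr rfl fun p hp => ?_
      rw [Set.indicator_of_mem (hnP p (mem_filter.1 hp).1)]
    rw [e, Real.norm_eq_abs] at h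
    have := le_abs_self (∑ p ∈ n.primeFactors with ¬ p ∣ D, (1 : ℝ) / p)
    linarith
  have h := main n D hn hDpos (1 / 2) (by norm_num) hsum
  have h2 : ⌊(n.primeFactors.card : ℝ) / (1 / 2)⌋₊ = 2 * n.primeFactors.card := by
    have : (n.primeFactors.card : ℝ) / (1 / 2) = ((2 * n.primeFactors.card : ℕ) : ℝ) := by
      push_cast; ring
    rw [this, Nat.floor_natCast]
  rw [h2] at h
  calc jac n ≤ D * (2 * n.primeFactors.card + 1) := h
    _ ≤ D * (2 * (n.primeFactors.card + 1)) := Nat.mul_le_mul_left _ (by omega)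
    _ = 2 * D * (n.primeFactors.card + 1) := by ring

theorem power_bound (ε δ : ℝ) (hε : 0 < ε) (hδ : 0 < δ) (n : ℕ) (hn : 2 ≤ n)
    (hsum : ∑ p ∈ n.primeFactors.filter (fun p : ℕ =>
      ε * Real.log (n.primeFactors.card) / Real.log 4 < (p : ℝ)), (1 : ℝ) / p ≤ 1 - δ) :
    (jac n : ℝ) ≤ (n.primeFactors.card : ℝ) ^ ε * (n.primeFactors.card / δ + 1) := by
  classical
  set k := n.primeFactors.card with hk
  have hk1 : 1 ≤ k := by
    rw [hk]
    exact card_pos.2 (Nat.nonempty_primeFactors.2 (by omega))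
  have hk1' : (1 : ℝ) ≤ k := by exact_mod_cast hk1
  have hlog : 0 ≤ Real.log k := Real.log_nonneg hk1'
  have hlog4 : 0 < Real.log 4 := Real.log_pos (by norm_num)
  set y := ⌊ε * Real.log k / Real.log 4⌋₊ with hy
  have hDpos : 0 < primorial y := primorial_pos y
  have hsum' : ∑ p ∈ n.primeFactors with ¬ p ∣ primorial y, (1 : ℝ) / p ≤ 1 - δ := by
    refine le_trans (sum_le_sum_of_subset_of_nonneg ?_ fun p _ _ => by positivity) hsum
    intro p hp
    rw [mem_filter] at hp ⊢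
    refine ⟨hp.1, ?_⟩
    by_contra hcon
    push Not at hcon
    apply hp.2
    have hpp := Nat.prime_of_mem_primeFactors hp.1
    have hpy : p ≤ y := Nat.le_floor hcon
    exact dvd_prod_of_mem _ (mem_filter.2 ⟨mem_range.2 (by omega), hpp⟩)
  have h := main n (primorial y) (by omega) hDpos δ hδ hsum'
  have h' : (jac n : ℝ) ≤ (primorial y : ℝ) * ((⌊(k : ℝ) / δ⌋₊ : ℝ) + 1) := by exact_mod_cast h
  have h1 : (primorial y : ℝ) ≤ (k : ℝ) ^ ε := by
    have e1 : (primorial y : ℝ) ≤ (4 : ℝ) ^ y := by exact_mod_cast primorial_le_four_pow y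
    have e2 : (4 : ℝ) ^ y ≤ (k : ℝ) ^ ε := by
      rw [← Real.rpow_natCast, Real.rpow_def_of_pos (by norm_num : (0 : ℝ) < 4),
        Real.rpow_def_of_pos (by linarith : (0 : ℝ) < k)]
      apply Real.exp_le_exp.2
      have : (y : ℝ) ≤ ε * Real.log k / Real.log 4 := Nat.floor_le (by positivity)
      rw [le_div_iff₀ hlog4] at this
      linarith
    linarith
  have h2 : (⌊(k : ℝ) / δ⌋₊ : ℝ) + 1 ≤ k / δ + 1 := by
    have := Nat.floor_le (by positivity : (0 : ℝ) ≤ (k : ℝ) / δ)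
    linarith
  calc (jac n : ℝ) ≤ (primorial y : ℝ) * ((⌊(k : ℝ) / δ⌋₊ : ℝ) + 1) := h'
    _ ≤ _ := mul_le_mul h1 h2 (by positivity) (by positivity)

/-- **Jacobsthal's function for integers whose prime divisors are sparse.**

1. For every set `P` of primes with convergent reciprocal sum, `j(n) ≤ C (ω(n) + 1)` for all `n`
   composed of primes of `P`, with `C` depending only on `P`.
2. For all `ε, δ > 0` and `n ≥ 2` with `k = ω(n)`: if the prime divisors `p > ε log k / log 4` of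
   `n` satisfy `∑ 1/p ≤ 1 - δ`, then `j(n) ≤ k^ε (k/δ + 1)`.
3. In general, for `D ≥ 1`, `δ > 0`: if the prime divisors `p` of `n` with `p ∤ D` satisfy
   `∑ 1/p ≤ 1 - δ`, then `j(n) ≤ D (⌊ω(n)/δ⌋ + 1)`. -/
theorem result :
    (∀ P : Set ℕ, Summable (P.indicator fun p : ℕ => (1 : ℝ) / p) →
      ∃ C : ℕ, ∀ n : ℕ, n ≠ 0 → (∀ p ∈ n.primeFactors, p ∈ P) →
        jac n ≤ C * (n.primeFactors.card + 1)) ∧
    (∀ ε δ : ℝ, 0 < ε → 0 < δ → ∀ n : ℕ, 2 ≤ n →
      ∑ p ∈ n.primeFactors.filter (fun p : ℕ =>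
        ε * Real.log (n.primeFactors.card) / Real.log 4 < (p : ℝ)), (1 : ℝ) / p ≤ 1 - δ →
      (jac n : ℝ) ≤ (n.primeFactors.card : ℝ) ^ ε * (n.primeFactors.card / δ + 1)) ∧
    (∀ n D : ℕ, n ≠ 0 → 0 < D → ∀ δ : ℝ, 0 < δ →
      ∑ p ∈ n.primeFactors with ¬ p ∣ D, (1 : ℝ) / p ≤ 1 - δ →
      jac n ≤ D * (⌊(n.primeFactors.card : ℝ) / δ⌋₊ + 1)) :=
  ⟨sparse_set, fun ε δ hε hδ n hn h => power_bound ε δ hε hδ n hn h,
    fun n D hn hD δ hδ h => main n D hn hD δ hδ h⟩

end Vale.Agent.Results.P013.SparsePrimes
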